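import Vale.Agent.P112.T.DefsN
import Vale.Agent.P112.H8.GridQ

/-!
# (D0) The density function

`dns a u E τ z k` is the supremum, over all `lam`-tiles (`lam = 2 ^ m`, rational slope and line,
level `i ≤ k`) which lie above the `lam`-dilate of the tile of `(z, k)`, of `lam ^ (-a)` times the
relative density of `E`. It is measurable in `z`, nondecreasing in `k`, and it controls the
densities with real parameters.
-/

open MeasureTheory Set
open scoped ENNReal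

namespace Vale.Agent.P112.D0

open Vale.Agent.P112.T Vale.Agent.P112.H8

/-- The `lam`-tile over the cell `m` of level `i`, slope `th`, line `y = c + th x`. -/
def tl (u : ℝ × ℝ → ℝ) (E : Set (ℝ × ℝ)) (τ : ℝ) (i : ℕ) (m : ℤ) (lam th c : ℝ) : Set (ℝ × ℝ) :=
  {z | z ∈ E ∧ q τ i z.1 = m ∧ |z.2 - c - th * z.1| ≤ lam ∧ |u z - th| ≤ lam * 2 ^ i}

/-- Parameters of a tile: `lam = 2 ^ m`, slope, intercept, level. -/
abbrev Par : Type := ℕ × ℚ × ℚ × ℕ

/-- Admissible parameters for the pair `(z, k)`. -/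
def adm (u : ℝ × ℝ → ℝ) (z : ℝ × ℝ) (k : ℕ) (p : Par) : Prop :=
  p.2.2.2 ≤ k ∧ |(p.2.1 : ℝ) - u z| ≤ 2 ^ p.1 * 2 ^ k ∧
    |z.2 - (p.2.2.1 : ℝ) - (p.2.1 : ℝ) * z.1| ≤ 2 ^ p.1

/-- The relative density of a tile with the penalty `lam ^ (-a)`. -/
noncomputable def val (a : ℕ) (u : ℝ × ℝ → ℝ) (E : Set (ℝ × ℝ)) (τ : ℝ) (x : ℝ) (p : Par) :
    ℝ≥0∞ :=
  volume (tl u E τ p.2.2.2 (q τ p.2.2.2 x) (2 ^ p.1) p.2.1 p.2.2.1) *
    ENNReal.ofReal (2 ^ p.2.2.2 / 2 ^ (p.1 * a))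

/-- The density function. -/
noncomputable def dns (a : ℕ) (u : ℝ × ℝ → ℝ) (E : Set (ℝ × ℝ)) (τ : ℝ) (z : ℝ × ℝ) (k : ℕ) :
    ℝ≥0∞ :=
  ⨆ p : Par, ⨆ _ : adm u z k p, val a u E τ z.1 p

variable {a : ℕ} {u : ℝ × ℝ → ℝ} {E : Set (ℝ × ℝ)} {τ : ℝ}

theorem adm_mono {z : ℝ × ℝ} {k k' : ℕ} (h : k ≤ k') {p : Par} (hp : adm u z k p) :
    adm u z k' p := by
  refine ⟨hp.1.trans h, hp.2.1.trans ?_, hp.2.2⟩
  have : (2:ℝ) ^ k ≤ 2 ^ k' := pow_le_pow_right₀ (by norm_num) h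
  gcongr

/-- (b) -/
theorem dns_mono {z : ℝ × ℝ} {k k' : ℕ} (h : k ≤ k') : dns a u E τ z k ≤ dns a u E τ z k' := by
  refine iSup_mono fun p => ?_
  refine iSup_mono' fun hp => ⟨adm_mono h hp, le_rfl⟩

theorem val_le_dns {z : ℝ × ℝ} {k : ℕ} {p : Par} (hp : adm u z k p) :
    val a u E τ z.1 p ≤ dns a u E τ z k :=
  le_iSup_of_le p (le_iSup_of_le hp le_rfl)

theorem adm_meas (hu : Measurable u) (k : ℕ) (p : Par) : MeasurableSet {z | adm u z k p} := by
  have h1 : MeasurableSet {z : ℝ × ℝ | |(p.2.1 : ℝ) - u z| ≤ 2 ^ p.1 * 2 ^ k} :=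
    measurableSet_le (by fun_prop) measurable_const
  have h2 : MeasurableSet {z : ℝ × ℝ | |z.2 - (p.2.2.1 : ℝ) - (p.2.1 : ℝ) * z.1| ≤ 2 ^ p.1} :=
    measurableSet_le (by fun_prop) measurable_const
  by_cases h : p.2.2.2 ≤ k
  · have : {z | adm u z k p} = {z : ℝ × ℝ | |(p.2.1 : ℝ) - u z| ≤ 2 ^ p.1 * 2 ^ k} ∩
        {z : ℝ × ℝ | |z.2 - (p.2.2.1 : ℝ) - (p.2.1 : ℝ) * z.1| ≤ 2 ^ p.1} := by
      ext z; simp [adm, h]
    rw [this]; exact h1.inter h2
  · have : {z | adm u z k p} = ∅ := by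
      ext z; simp [adm, h]
    rw [this]; exact MeasurableSet.empty

/-- (a) -/
theorem dns_meas (hu : Measurable u) (k : ℕ) : Measurable (fun z => dns a u E τ z k) := by
  classical
  unfold dns
  refine Measurable.iSup fun p => ?_
  have hv : Measurable (fun z : ℝ × ℝ => val a u E τ z.1 p) := by
    unfold val
    refine Measurable.mul_const ?_ _
    exact (measurable_of_countable (fun m : ℤ =>
      volume (tl u E τ p.2.2.2 m (2 ^ p.1) p.2.1 p.2.2.1))).comp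
      ((q_meas τ p.2.2.2).comp measurable_fst)
  have : (fun z => ⨆ _ : adm u z k p, val a u E τ z.1 p) =
      {z | adm u z k p}.indicator (fun z => val a u E τ z.1 p) := by
    ext z
    by_cases h : adm u z k p
    · rw [indicator_of_mem (by exact h)]; simp [h]
    · rw [indicator_of_notMem (by exact h)]; simp [h]
  rw [this]
  exact hv.indicator (adm_meas hu k p)

/-- volume of a sheared strip over a cell -/
theorem strip_vol (τ : ℝ) (i : ℕ) (m : ℤ) (lam th c : ℝ) :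
    volume {z : ℝ × ℝ | q τ i z.1 = m ∧ |z.2 - c - th * z.1| ≤ lam} =
      ENNReal.ofReal ((1/2)^i) * ENNReal.ofReal (2 * lam) := by
  have hm : MeasurableSet {z : ℝ × ℝ | q τ i z.1 = m ∧ |z.2 - c - th * z.1| ≤ lam} := by
    have h1 : MeasurableSet {z : ℝ × ℝ | q τ i z.1 = m} :=
      ((q_meas τ i).comp measurable_fst) (measurableSet_singleton m)
    have h2 : MeasurableSet {z : ℝ × ℝ | |z.2 - c - th * z.1| ≤ lam} :=
      measurableSet_le (by fun_prop) measurable_const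
    exact h1.inter h2
  rw [Measure.volume_eq_prod, Measure.prod_apply hm]
  have hc : MeasurableSet {x : ℝ | q τ i x = m} := (q_meas τ i) (measurableSet_singleton m)
  have : ∀ x : ℝ, volume (Prod.mk x ⁻¹' {z : ℝ × ℝ | q τ i z.1 = m ∧ |z.2 - c - th * z.1| ≤ lam}) =
      {x : ℝ | q τ i x = m}.indicator (fun _ => ENNReal.ofReal (2 * lam)) x := by
    intro x
    by_cases hx : q τ i x = m
    · rw [indicator_of_mem (by exact hx)]
      have : Prod.mk x ⁻¹' {z : ℝ × ℝ | q τ i z.1 = m ∧ |z.2 - c - th * z.1| ≤ lam} =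
          Icc (c + th * x - lam) (c + th * x + lam) := by
        ext y
        simp only [mem_preimage, mem_ofPred_eq, hx, true_and, abs_le, mem_Icc]
        constructor
        · rintro ⟨h1, h2⟩; constructor <;> linarith
        · rintro ⟨h1, h2⟩; constructor <;> linarith
      rw [this, Real.volume_Icc]
      congr 1; ring
    · rw [indicator_of_notMem (by exact hx)]
      have : Prod.mk x ⁻¹' {z : ℝ × ℝ | q τ i z.1 = m ∧ |z.2 - c - th * z.1| ≤ lam} = ∅ := by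
        ext y
        simp [hx]
      rw [this]; simp
  simp_rw [this]
  rw [lintegral_indicator hc, lintegral_const, Measure.restrict_apply_univ, q_vol, mul_comm]

theorem tl_vol_le (i : ℕ) (m : ℤ) (lam th c : ℝ) :
    volume (tl u E τ i m lam th c) ≤ ENNReal.ofReal ((1/2)^i) * ENNReal.ofReal (2 * lam) := by
  rw [← strip_vol τ i m lam th c]
  exact measure_mono fun z hz => ⟨hz.2.1, hz.2.2.1⟩

theorem val_le (x : ℝ) (p : Par) :
    val a u E τ x p ≤ ENNReal.ofReal (2 * 2 ^ p.1 / 2 ^ (p.1 * a)) := by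
  unfold val
  calc _ ≤ (ENNReal.ofReal ((1/2)^p.2.2.2) * ENNReal.ofReal (2 * 2 ^ p.1)) *
        ENNReal.ofReal (2 ^ p.2.2.2 / 2 ^ (p.1 * a)) := by
        gcongr; exact tl_vol_le _ _ _ _ _
    _ = _ := by
        rw [← ENNReal.ofReal_mul (by positivity), ← ENNReal.ofReal_mul (by positivity)]
        congr 1
        rw [one_div, inv_pow]
        field_simp

/-- (c) -/
theorem dns_le_two (ha : 1 ≤ a) (z : ℝ × ℝ) (k : ℕ) : dns a u E τ z k ≤ 2 := by
  refine iSup_le fun p => iSup_le fun _ => (val_le z.1 p).trans ?_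
  rw [show (2:ℝ≥0∞) = ENNReal.ofReal 2 by simp]
  apply ENNReal.ofReal_le_ofReal
  rw [div_le_iff₀ (by positivity)]
  have : (2:ℝ) ^ p.1 ≤ 2 ^ (p.1 * a) := pow_le_pow_right₀ (by norm_num) (Nat.le_mul_of_pos_right _ ha)
  linarith

/-- (f) the maximiser has bounded `lam` -/
theorem exists_par {z : ℝ × ℝ} {k : ℕ} {t : ℝ} (ht : 0 < t)
    (h : ENNReal.ofReal t < dns a u E τ z k) :
    ∃ p : Par, adm u z k p ∧ t * 2 ^ (p.1 * a) < 2 * 2 ^ p.1 ∧
      ENNReal.ofReal t < val a u E τ z.1 p ∧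
      ENNReal.ofReal (t * 2 ^ (p.1 * a) / 2 ^ p.2.2.2) <
        volume (tl u E τ p.2.2.2 (q τ p.2.2.2 z.1) (2 ^ p.1) p.2.1 p.2.2.1) := by
  unfold dns at h
  obtain ⟨p, hp⟩ := lt_iSup_iff.1 h
  obtain ⟨hadm, hv⟩ := lt_iSup_iff.1 hp
  refine ⟨p, hadm, ?_, hv, ?_⟩
  · have h1 := hv.trans_le (val_le z.1 p)
    rw [ENNReal.ofReal_lt_ofReal_iff (by positivity), lt_div_iff₀ (by positivity)] at h1
    exact h1
  · unfold val at hv
    have hpos : (0:ℝ) < 2 ^ p.2.2.2 / 2 ^ (p.1 * a) := by positivity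
    have e : ENNReal.ofReal (t * 2 ^ (p.1 * a) / 2 ^ p.2.2.2) *
        ENNReal.ofReal (2 ^ p.2.2.2 / 2 ^ (p.1 * a)) = ENNReal.ofReal t := by
      rw [← ENNReal.ofReal_mul (by positivity)]
      congr 1
      field_simp
    rw [← e] at hv
    exact lt_of_mul_lt_mul_right' hv

/-- (e) real parameters -/
theorem tl_le {z1 : ℝ × ℝ} {k : ℕ} {t : ℝ} (ht : 0 ≤ t) (h : dns a u E τ z1 k ≤ ENNReal.ofReal t)
    {lam th c : ℝ} (hlam : 1 ≤ lam) (h1 : |th - u z1| ≤ lam * 2 ^ k)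
    (h2 : |z1.2 - c - th * z1.1| ≤ lam) {i : ℕ} (hi : i ≤ k) :
    volume (tl u E τ i (q τ i z1.1) lam th c) ≤ ENNReal.ofReal (lam ^ a * (4 ^ a * t) / 2 ^ i) := by
  obtain ⟨n0, hn1, hn2⟩ := exists_nat_pow_near hlam (by norm_num : (1:ℝ) < 2)
  obtain ⟨th', hth1, hth2⟩ := exists_rat_btwn (show th - 1/4 < th by linarith)
  obtain ⟨c', hc1, hc2⟩ := exists_rat_btwn
    (show c - (th' - th) * z1.1 - 1/4 < c - (th' - th) * z1.1 by linarith)
  set m := n0 + 2 with hm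
  have hm2 : (2:ℝ)^m = 4 * 2^n0 := by rw [hm, pow_add]; norm_num; ring
  have hm3 : (2:ℝ)^(n0+1) = 2 * 2^n0 := by ring
  have hlm : 2 * lam ≤ 2^m := by rw [hm2]; rw [hm3] at hn2; linarith
  have hlm' : (2:ℝ)^m ≤ 4 * lam := by rw [hm2]; linarith
  have hk1 : (1:ℝ) ≤ 2^k := one_le_pow₀ (by norm_num)
  have hi1 : (1:ℝ) ≤ 2^i := one_le_pow₀ (by norm_num)
  have hdth : |(th':ℝ) - th| ≤ 1/4 := by rw [abs_le]; constructor <;> linarith
  have hadm : adm u z1 k (m, th', c', i) := by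
    refine ⟨hi, ?_, ?_⟩
    · have e1 : |(th':ℝ) - u z1| ≤ |(th':ℝ) - th| + |th - u z1| := abs_sub_le _ _ _
      show |(th':ℝ) - u z1| ≤ 2^m * 2^k
      have : 2 * lam * 2^k ≤ 2^m * 2^k := by gcongr
      nlinarith
    · show |z1.2 - (c':ℝ) - (th':ℝ) * z1.1| ≤ 2^m
      have e2 : z1.2 - (c':ℝ) - (th':ℝ) * z1.1 = (z1.2 - c - th * z1.1) +
        (c - (th' - th) * z1.1 - c') := by ring
      rw [e2]
      have e3 : |c - ((th':ℝ) - th) * z1.1 - c'| ≤ 1/4 := by rw [abs_le]; constructor <;> linarith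
      have e4 := abs_add_le (z1.2 - c - th * z1.1) (c - ((th':ℝ) - th) * z1.1 - c')
      linarith
  have hsub : tl u E τ i (q τ i z1.1) lam th c ⊆
      tl u E τ i (q τ i z1.1) (2^m) th' c' := by
    rintro z ⟨hz, hq, ho, hs⟩
    refine ⟨hz, hq, ?_, ?_⟩
    · have hx : |z.1 - z1.1| ≤ 1 := by
        obtain ⟨a1, a2⟩ := (q_eq_iff τ i z.1 _).1 hq
        obtain ⟨b1, b2⟩ := (q_eq_iff τ i z1.1 _).1 rfl
        have hle : 2^i * |z.1 - z1.1| ≤ 1 := by
          have e7 : 2^i * |z.1 - z1.1| = |2^i * (z.1 - z1.1)| := by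
            rw [abs_mul, abs_of_pos (by positivity : (0:ℝ) < 2^i)]
          rw [e7, abs_le]
          constructor <;> nlinarith
        nlinarith [abs_nonneg (z.1 - z1.1)]
      have e2 : z.2 - (c':ℝ) - (th':ℝ) * z.1 = (z.2 - c - th * z.1) +
        ((c - (th' - th) * z1.1 - c') + (th - th') * (z.1 - z1.1)) := by ring
      rw [e2]
      have e3 : |c - ((th':ℝ) - th) * z1.1 - c'| ≤ 1/4 := by rw [abs_le]; constructor <;> linarith
      have e5 : |(th - (th':ℝ)) * (z.1 - z1.1)| ≤ 1/4 := by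
        rw [abs_mul, abs_sub_comm]
        calc |(th':ℝ) - th| * |z.1 - z1.1| ≤ 1/4 * 1 := by gcongr
          _ = 1/4 := by norm_num
      have e4 := abs_add_le (z.2 - c - th * z.1)
        ((c - (th' - th) * z1.1 - c') + (th - th') * (z.1 - z1.1))
      have e6 := abs_add_le (c - ((th':ℝ) - th) * z1.1 - c') ((th - th') * (z.1 - z1.1))
      linarith
    · have e1 : |u z - (th':ℝ)| ≤ |u z - th| + |th - (th':ℝ)| := abs_sub_le _ _ _
      rw [abs_sub_comm th] at e1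
      have : 2 * lam * 2^i ≤ 2^m * 2^i := by gcongr
      nlinarith
  have hv := (val_le_dns (a := a) (E := E) (τ := τ) hadm).trans h
  unfold val at hv
  simp only at hv
  calc volume (tl u E τ i (q τ i z1.1) lam th c)
      ≤ volume (tl u E τ i (q τ i z1.1) (2^m) th' c') := measure_mono hsub
    _ = volume (tl u E τ i (q τ i z1.1) (2^m) th' c') *
          (ENNReal.ofReal (2 ^ i / 2 ^ (m * a)) * ENNReal.ofReal (2 ^ (m * a) / 2 ^ i)) := by
        rw [← ENNReal.ofReal_mul (by positivity)]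
        have : (2:ℝ) ^ i / 2 ^ (m * a) * (2 ^ (m * a) / 2 ^ i) = 1 := by field_simp
        rw [this]; simp
    _ ≤ ENNReal.ofReal t * ENNReal.ofReal (2 ^ (m * a) / 2 ^ i) := by
        rw [← mul_assoc]; gcongr
    _ ≤ _ := by
        rw [← ENNReal.ofReal_mul ht]
        apply ENNReal.ofReal_le_ofReal
        rw [← mul_div_assoc]
        have : (2:ℝ) ^ (m * a) ≤ lam ^ a * 4 ^ a := by
          rw [pow_mul, ← mul_pow]
          gcongr
          linarith
        have h8 : t * 2 ^ (m * a) ≤ lam ^ a * (4 ^ a * t) := by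
          calc t * 2 ^ (m * a) ≤ t * (lam ^ a * 4 ^ a) := by gcongr
            _ = _ := by ring
        gcongr

/-- density hypothesis of T3 -/
theorem dens_of {E' : ℕ → Set (ℝ × ℝ)} {K : ℕ} {t : ℝ} (ht : 0 ≤ t) (hE : Un E' K ⊆ E)
    (h : ∀ j < K, ∀ z ∈ E' j, dns a u E τ z j ≤ ENNReal.ofReal t) :
    T.Dens u E' K τ a (4 ^ a * t) := by
  intro j1 hj1 z1 hz1 lam hlam th c h1 h2 i hi
  refine (measure_mono ?_).trans (tl_le ht (h j1 hj1 z1 hz1) hlam h1 h2 hi)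
  rintro z ⟨hz, hq, ho, hs⟩
  exact ⟨hE hz, hq, ho, hs⟩

/-- density hypothesis of T2 -/
theorem dens_two_of {E' : ℕ → Set (ℝ × ℝ)} {K : ℕ} {t A s : ℝ} (hA : 1 ≤ A) (ht : 0 ≤ t)
    (hE : Un E' K ⊆ E) (hs : ∀ j < K, ∀ z ∈ E' j, |u z - s| ≤ A * 2 ^ j)
    (h : ∀ j < K, ∀ z ∈ E' j, dns a u E τ z j ≤ ENNReal.ofReal t) :
    ∀ j1 < K, ∀ z1 ∈ E' j1, ∀ i ≤ j1,
      volume {z : ℝ × ℝ | z ∈ Un E' K ∧ q τ i z.1 = q τ i z1.1 ∧
        |(z.2 - s * z.1) - (z1.2 - s * z1.1)| ≤ 1 ∧ |u z - s| ≤ 2 * A * 2 ^ i} ≤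
        ENNReal.ofReal ((2 * A) ^ a * (4 ^ a * t) / 2 ^ i) := by
  intro j1 hj1 z1 hz1 i hi
  have h2A : 1 ≤ 2 * A := by linarith
  refine (measure_mono ?_).trans (tl_le ht (h j1 hj1 z1 hz1) h2A (th := s)
    (c := z1.2 - s * z1.1) ?_ ?_ hi)
  · rintro z ⟨hz, hq, ho, hs'⟩
    refine ⟨hE hz, hq, ?_, hs'⟩
    have : z.2 - (z1.2 - s * z1.1) - s * z.1 = (z.2 - s * z.1) - (z1.2 - s * z1.1) := by ring
    rw [this]; linarith
  · rw [abs_sub_comm]
    refine (hs j1 hj1 z1 hz1).trans ?_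
    have : (0:ℝ) < 2 ^ j1 := by positivity
    nlinarith
  · have : z1.2 - (z1.2 - s * z1.1) - s * z1.1 = 0 := by ring
    rw [this, abs_zero]; linarith

/-- (g) the density classes `2 ^ (-n) < dns ≤ 2 * 2 ^ (-n)` -/
def cls (a : ℕ) (u : ℝ × ℝ → ℝ) (E : Set (ℝ × ℝ)) (τ : ℝ) (n k : ℕ) : Set (ℝ × ℝ) :=
  {z | ENNReal.ofReal ((1/2)^n) < dns a u E τ z k ∧
    dns a u E τ z k ≤ ENNReal.ofReal (2 * (1/2)^n)}

theorem cls_meas (hu : Measurable u) (n k : ℕ) : MeasurableSet (cls a u E τ n k) :=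
  (measurableSet_lt measurable_const (dns_meas hu k)).inter
    (measurableSet_le (dns_meas hu k) measurable_const)

theorem cls_convex {z : ℝ × ℝ} {n i j k : ℕ} (hij : i ≤ j) (hjk : j ≤ k)
    (hi : z ∈ cls a u E τ n i) (hk : z ∈ cls a u E τ n k) : z ∈ cls a u E τ n j :=
  ⟨hi.1.trans_le (dns_mono hij), (dns_mono hjk).trans hk.2⟩

theorem cls_disj {z : ℝ × ℝ} {n n' k : ℕ} (h : z ∈ cls a u E τ n k) (h' : z ∈ cls a u E τ n' k) :
    n = n' := by
  have key : ∀ {n n' : ℕ}, z ∈ cls a u E τ n k → z ∈ cls a u E τ n' k → ¬ n < n' := by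
    intro n n' h h' hlt
    have h1 := h.1.trans_le h'.2
    rw [ENNReal.ofReal_lt_ofReal_iff (by positivity)] at h1
    have : ((1:ℝ)/2)^n' ≤ (1/2)^(n+1) := pow_le_pow_of_le_one (by norm_num) (by norm_num) hlt
    rw [pow_succ] at this
    linarith
  have := key h h'
  have := key h' h
  omega

/-- the classes cover everything of positive density -/
theorem exists_cls (ha : 1 ≤ a) {z : ℝ × ℝ} {k : ℕ} (h : dns a u E τ z k ≠ 0) :
    ∃ n, z ∈ cls a u E τ n k := by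
  have h2 := dns_le_two (u := u) (E := E) (τ := τ) ha z k
  have hfin : dns a u E τ z k ≠ ⊤ := ne_top_of_le_ne_top (by simp) h2
  set t := (dns a u E τ z k).toReal with ht
  have ht0 : 0 < t := ENNReal.toReal_pos h hfin
  have ht2 : t ≤ 2 := by
    have := ENNReal.toReal_mono (by simp) h2
    simpa using this
  have e : dns a u E τ z k = ENNReal.ofReal t := (ENNReal.ofReal_toReal hfin).symm
  have hex : ∃ n : ℕ, (1/2:ℝ)^n < t := exists_pow_lt_of_lt_one ht0 (by norm_num)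
  classical
  set n := Nat.find hex with hn
  have hn1 : (1/2:ℝ)^n < t := Nat.find_spec hex
  refine ⟨n, ?_, ?_⟩
  · rw [e]; exact (ENNReal.ofReal_lt_ofReal_iff ht0).2 hn1
  · rw [e]
    apply ENNReal.ofReal_le_ofReal
    rcases Nat.eq_zero_or_pos n with h0 | hpos
    · rw [h0]; simpa using ht2
    · have := Nat.find_min hex (m := n - 1) (by omega)
      rw [not_lt] at this
      have h3 : (1/2:ℝ)^n = (1/2)^(n-1) * (1/2) := by
        rw [← pow_succ]; congr 1; omega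
      rw [h3]; linarith

/-- (d) positive density almost everywhere on `E` -/
theorem dns_ne_zero :
    ∀ᵐ z, z ∈ E → ∀ k, dns a u E τ z k ≠ 0 := by
  -- cells of `E` of measure zero
  set B : ℤ → Set (ℝ × ℝ) := fun m => {z | z ∈ E ∧ q τ 0 z.1 = m} with hB
  have hnull : volume (⋃ m ∈ {m : ℤ | volume (B m) = 0}, B m) = 0 := by
    rw [measure_biUnion_null_iff (to_countable _)]
    intro m hm; exact hm
  have hae : ∀ᵐ z : ℝ × ℝ, z ∉ ⋃ m ∈ {m : ℤ | volume (B m) = 0}, B m :=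
    measure_eq_zero_iff_ae_notMem.1 hnull
  filter_upwards [hae] with z hz hzE k
  have hpos : volume (B (q τ 0 z.1)) ≠ 0 := by
    intro h0
    exact hz (mem_iUnion₂.2 ⟨q τ 0 z.1, h0, hzE, rfl⟩)
  -- increasing union
  set D : ℕ → Set (ℝ × ℝ) := fun m => tl u E τ 0 (q τ 0 z.1) (2 ^ m) ((0:ℚ):ℝ) ((0:ℚ):ℝ) with hD
  have hun : B (q τ 0 z.1) ⊆ ⋃ m, D m := by
    rintro w ⟨hw, hq⟩
    obtain ⟨m, hm⟩ := pow_unbounded_of_one_lt (max |w.2| |u w|) (by norm_num : (1:ℝ) < 2)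
    refine mem_iUnion.2 ⟨m, hw, hq, ?_, ?_⟩
    · have := le_max_left |w.2| |u w|
      simp only [Rat.cast_zero, sub_zero, zero_mul]
      linarith
    · have := le_max_right |w.2| |u w|
      simp only [Rat.cast_zero, sub_zero, pow_zero, mul_one]
      linarith
  have hex : ∃ m, volume (D m) ≠ 0 := by
    by_contra hcon
    push Not at hcon
    apply hpos
    refine measure_mono_null hun ?_
    rw [measure_iUnion_null_iff]
    exact hcon
  obtain ⟨m0, hm0⟩ := hex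
  obtain ⟨m1, hm1⟩ := pow_unbounded_of_one_lt (max |z.2| |u z|) (by norm_num : (1:ℝ) < 2)
  set m := max m0 m1 with hm
  have hmono : D m0 ⊆ D m := by
    rintro w ⟨hw, hq, ho, hs⟩
    have : (2:ℝ)^m0 ≤ 2^m := pow_le_pow_right₀ (by norm_num) (le_max_left _ _)
    exact ⟨hw, hq, ho.trans this, hs.trans (by gcongr)⟩
  have hDm : volume (D m) ≠ 0 := fun h0 => hm0 (measure_mono_null hmono h0)
  have hbig : (2:ℝ)^m1 ≤ 2^m := pow_le_pow_right₀ (by norm_num) (le_max_right _ _)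
  have hadm : adm u z k (m, 0, 0, 0) := by
    have h1 := le_max_left |z.2| |u z|
    have h2 := le_max_right |z.2| |u z|
    have hk1 : (1:ℝ) ≤ 2^k := one_le_pow₀ (by norm_num)
    refine ⟨Nat.zero_le _, ?_, ?_⟩
    · simp only [Rat.cast_zero, zero_sub, abs_neg]
      calc |u z| ≤ 2^m := by linarith
        _ ≤ 2^m * 2^k := le_mul_of_one_le_right (by positivity) hk1
    · simp only [Rat.cast_zero, sub_zero, zero_mul]
      linarith
  have hle := val_le_dns (a := a) (E := E) (τ := τ) hadm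
  intro h0
  rw [h0, nonpos_iff_eq_zero] at hle
  unfold val at hle
  rcases mul_eq_zero.1 hle with h | h
  · exact hDm h
  · rw [ENNReal.ofReal_eq_zero] at h
    have : (0:ℝ) < 2 ^ 0 / 2 ^ (m * a) := by positivity
    simp only at h
    linarith

end Vale.Agent.P112.D0
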